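import Vale.Agent.Lib.P243.R3.helper11.M4a

/-!
Hitting set for efficient pairs, main statement (helper11, P243 R3 push, module M4).
-/

namespace Vale.Agent.Lib.P243.R3.H11

open Set Module MeasureTheory
open Vale.Agent.Lib.P243.R3

/-- The star condition for a pair: every boundary point is joined to `p` or to `q` by a
segment inside the boundary. -/
def EffStar (K : Set E3) (p q : E3) : Prop :=
  ∀ x ∈ frontier K, segment ℝ p x ⊆ frontier K ∨ segment ℝ q x ⊆ frontier K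

theorem facet_hits {K : Set E3} (hK : Body K) {f : E3 →L[ℝ] ℝ} {M : ℝ}
    (hF : FacetPlane K f M) {p q : E3} (hp : p ∈ K) (hq : q ∈ K) (hst : EffStar K p q) :
    f p = M ∨ f q = M := by
  obtain ⟨hs, u, hu, huK⟩ := hF
  have hc := centroid_mem hK huK
  have hfr := mem_frontier_of_max hs hc.1 hc.2
  rcases hst _ hfr with h | h
  · exact Or.inl (star_facet hK hu huK hp h)
  · exact Or.inr (star_facet hK hu huK hq h)

/-- Case of three facets in pairwise distinct planes. -/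
theorem hitting_three {K : Set E3} (hK : Body K) {f1 f2 f3 : E3 →L[ℝ] ℝ} {M1 M2 M3 : ℝ}
    (hF1 : FacetPlane K f1 M1) (hF2 : FacetPlane K f2 M2) (hF3 : FacetPlane K f3 M3)
    (h12 : ¬ ∀ w, f1 w = M1 ↔ f2 w = M2) (h13 : ¬ ∀ w, f1 w = M1 ↔ f3 w = M3)
    (h23 : ¬ ∀ w, f2 w = M2 ↔ f3 w = M3) :
    ∃ α β : Fin 3 → E3, (∀ j, α j ∈ K ∧ β j ∈ K) ∧
      ∀ p ∈ K, ∀ q ∈ K, EffStar K p q →
        (p ∈ ⋃ j, segment ℝ (α j) (β j)) ∨ (q ∈ ⋃ j, segment ℝ (α j) (β j)) := by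
  have hKn : K.Nonempty := hK.int.mono interior_subset
  obtain ⟨c12, d12, hl12⟩ := planes_inter_line hF1.1.1 hF2.1.1 h12
  obtain ⟨c13, d13, hl13⟩ := planes_inter_line hF1.1.1 hF3.1.1 h13
  obtain ⟨c23, d23, hl23⟩ := planes_inter_line hF2.1.1 hF3.1.1 h23
  obtain ⟨α12, β12, hα12, hβ12, hs12⟩ := line_segment hK.compact hKn c12 d12
  obtain ⟨α13, β13, hα13, hβ13, hs13⟩ := line_segment hK.compact hKn c13 d13
  obtain ⟨α23, β23, hα23, hβ23, hs23⟩ := line_segment hK.compact hKn c23 d23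
  refine ⟨![α12, α13, α23], ![β12, β13, β23], ?_, ?_⟩
  · intro j
    fin_cases j
    · exact ⟨hα12, hβ12⟩
    · exact ⟨hα13, hβ13⟩
    · exact ⟨hα23, hβ23⟩
  intro p hp q hq hst
  have e1 := facet_hits hK hF1 hp hq hst
  have e2 := facet_hits hK hF2 hp hq hst
  have e3 := facet_hits hK hF3 hp hq hst
  have m0 : ∀ w ∈ K, f1 w = M1 → f2 w = M2 →
      w ∈ ⋃ j, segment ℝ ((![α12, α13, α23] : Fin 3 → E3) j) ((![β12, β13, β23] : Fin 3 → E3) j) :=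
    fun w hw a b => mem_iUnion.2 ⟨0, hs12 w hw (hl12 w a b)⟩
  have m1 : ∀ w ∈ K, f1 w = M1 → f3 w = M3 →
      w ∈ ⋃ j, segment ℝ ((![α12, α13, α23] : Fin 3 → E3) j) ((![β12, β13, β23] : Fin 3 → E3) j) :=
    fun w hw a b => mem_iUnion.2 ⟨1, hs13 w hw (hl13 w a b)⟩
  have m2 : ∀ w ∈ K, f2 w = M2 → f3 w = M3 →
      w ∈ ⋃ j, segment ℝ ((![α12, α13, α23] : Fin 3 → E3) j) ((![β12, β13, β23] : Fin 3 → E3) j) :=
    fun w hw a b => mem_iUnion.2 ⟨2, hs23 w hw (hl23 w a b)⟩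
  rcases e1 with a | a <;> rcases e2 with b | b <;> rcases e3 with c | c
  · exact Or.inl (m0 p hp a b)
  · exact Or.inl (m0 p hp a b)
  · exact Or.inl (m1 p hp a c)
  · exact Or.inr (m2 q hq b c)
  · exact Or.inl (m2 p hp b c)
  · exact Or.inr (m1 q hq a c)
  · exact Or.inr (m0 q hq a b)
  · exact Or.inr (m0 q hq a b)

/-- If every facet plane is one of two supporting planes, any two pairs with the star
condition share an endpoint. -/
theorem share_endpoint {K : Set E3} (hK : Body K) {f1 f2 : E3 →L[ℝ] ℝ} {M1 M2 : ℝ}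
    (h1 : Supp K f1 M1) (h2 : Supp K f2 M2)
    (hfac : ∀ (g : E3 →L[ℝ] ℝ) (M' : ℝ), FacetPlane K g M' →
      (∀ w, g w = M' → f1 w = M1) ∨ (∀ w, g w = M' → f2 w = M2))
    {p1 q1 p2 q2 : E3} (hp1 : p1 ∈ K) (hq1 : q1 ∈ K) (hp2 : p2 ∈ K) (hq2 : q2 ∈ K)
    (hst1 : EffStar K p1 q1) (hst2 : EffStar K p2 q2) :
    p2 = p1 ∨ p2 = q1 ∨ q2 = p1 ∨ q2 = q1 := by
  classical
  by_contra hcon
  have n1 : p2 ≠ p1 := fun h => hcon (Or.inl h)
  have n2 : p2 ≠ q1 := fun h => hcon (Or.inr (Or.inl h))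
  have n3 : q2 ≠ p1 := fun h => hcon (Or.inr (Or.inr (Or.inl h)))
  have n4 : q2 ≠ q1 := fun h => hcon (Or.inr (Or.inr (Or.inr h)))
  apply frontier_not_covered hK h1 h2 {(p1, p2), (p1, q2), (q1, p2), (q1, q2)}
  intro x hx
  have hxK : x ∈ K := hK.compact.isClosed.frontier_subset hx
  have key : ∀ a1 ∈ K, ∀ a2 ∈ K, a1 ≠ a2 →
      segment ℝ a2 (midpoint ℝ a1 x) ⊆ frontier K →
      (f1 x = M1 ∨ f2 x = M2 ∨ ∃ s : ℝ, x = a1 + s • (a2 - a1)) := by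
    intro a1 ha1 a2 ha2 h12 hs2
    rcases cover_step hK ha1 ha2 hxK h12 hs2 with h | ⟨g, M', hF, hgx⟩
    · exact Or.inr (Or.inr h)
    · rcases hfac g M' hF with h | h
      · exact Or.inl (h x hgx)
      · exact Or.inr (Or.inl (h x hgx))
  rcases hst1 x hx with hs1 | hs1
  · have hx' : midpoint ℝ p1 x ∈ frontier K := hs1 (midpoint_mem_segment _ _)
    rcases hst2 _ hx' with hs2 | hs2
    · rcases key p1 hp1 p2 hp2 (Ne.symm n1) hs2 with h | h | h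
      · exact Or.inl h
      · exact Or.inr (Or.inl h)
      · exact Or.inr (Or.inr ⟨(p1, p2), by simp, h⟩)
    · rcases key p1 hp1 q2 hq2 (Ne.symm n3) hs2 with h | h | h
      · exact Or.inl h
      · exact Or.inr (Or.inl h)
      · exact Or.inr (Or.inr ⟨(p1, q2), by simp, h⟩)
  · have hx' : midpoint ℝ q1 x ∈ frontier K := hs1 (midpoint_mem_segment _ _)
    rcases hst2 _ hx' with hs2 | hs2
    · rcases key q1 hq1 p2 hp2 (Ne.symm n2) hs2 with h | h | h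
      · exact Or.inl h
      · exact Or.inr (Or.inl h)
      · exact Or.inr (Or.inr ⟨(q1, p2), by simp, h⟩)
    · rcases key q1 hq1 q2 hq2 (Ne.symm n4) hs2 with h | h | h
      · exact Or.inl h
      · exact Or.inr (Or.inl h)
      · exact Or.inr (Or.inr ⟨(q1, q2), by simp, h⟩)

/-- Without three facets in pairwise distinct planes, two supporting planes carry all facets. -/
theorem exists_two_planes {K : Set E3} (hK : Body K)
    (hno : ¬ ∃ (f1 f2 f3 : E3 →L[ℝ] ℝ) (M1 M2 M3 : ℝ), FacetPlane K f1 M1 ∧ FacetPlane K f2 M2 ∧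
      FacetPlane K f3 M3 ∧ (¬ ∀ w, f1 w = M1 ↔ f2 w = M2) ∧ (¬ ∀ w, f1 w = M1 ↔ f3 w = M3) ∧
      (¬ ∀ w, f2 w = M2 ↔ f3 w = M3)) :
    ∃ (f1 f2 : E3 →L[ℝ] ℝ) (M1 M2 : ℝ), Supp K f1 M1 ∧ Supp K f2 M2 ∧
      ∀ (g : E3 →L[ℝ] ℝ) (M' : ℝ), FacetPlane K g M' →
        (∀ w, g w = M' → f1 w = M1) ∨ (∀ w, g w = M' → f2 w = M2) := by
  by_cases h0 : ∃ (g : E3 →L[ℝ] ℝ) (M' : ℝ), FacetPlane K g M'
  swap
  · obtain ⟨c, hc⟩ := hK.int
    have hd : (EuclideanSpace.single (0 : Fin 3) (1 : ℝ) : E3) ≠ 0 := by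
      intro h
      have := congrArg (fun v : E3 => v 0) h
      simp at this
    obtain ⟨T, hT⟩ := exists_exit hK.compact hc hd
    obtain ⟨f, hf0, hfle, -⟩ := exists_support_at hK.conv hK.int hT
    exact ⟨f, f, _, _, ⟨hf0, hfle⟩, ⟨hf0, hfle⟩, fun g M' hF => absurd ⟨g, M', hF⟩ h0⟩
  obtain ⟨g1, N1, hG1⟩ := h0
  by_cases h1 : ∀ (g : E3 →L[ℝ] ℝ) (M' : ℝ), FacetPlane K g M' → ∀ w, g w = M' ↔ g1 w = N1
  · exact ⟨g1, g1, N1, N1, hG1.1, hG1.1,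
      fun g M' hF => Or.inl (fun w hw => (h1 g M' hF w).1 hw)⟩
  obtain ⟨g2, hg2⟩ := not_forall.1 h1
  obtain ⟨N2, hN2⟩ := not_forall.1 hg2
  obtain ⟨hG2, hne⟩ := Classical.not_imp.1 hN2
  refine ⟨g1, g2, N1, N2, hG1.1, hG2.1, fun g M' hF => ?_⟩
  by_contra hcon
  obtain ⟨hc1, hc2⟩ := not_or.1 hcon
  apply hno
  refine ⟨g1, g2, g, N1, N2, M', hG1, hG2, hF, ?_, ?_, ?_⟩
  · intro h; exact hne (fun w => (h w).symm)
  · intro h; exact hc1 (fun w hw => (h w).2 hw)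
  · intro h; exact hc2 (fun w hw => (h w).2 hw)

/-- M4 in star form: three segments with endpoints in `K` meet every pair with the star
condition. -/
theorem hitting_of_star {K : Set E3} (hK : Body K) :
    ∃ α β : Fin 3 → E3, (∀ j, α j ∈ K ∧ β j ∈ K) ∧
      ∀ p ∈ K, ∀ q ∈ K,
        (∀ x ∈ frontier K, segment ℝ p x ⊆ frontier K ∨ segment ℝ q x ⊆ frontier K) →
        (p ∈ ⋃ j, segment ℝ (α j) (β j)) ∨ (q ∈ ⋃ j, segment ℝ (α j) (β j)) := by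
  by_cases hthree : ∃ (f1 f2 f3 : E3 →L[ℝ] ℝ) (M1 M2 M3 : ℝ), FacetPlane K f1 M1 ∧
      FacetPlane K f2 M2 ∧ FacetPlane K f3 M3 ∧ (¬ ∀ w, f1 w = M1 ↔ f2 w = M2) ∧
      (¬ ∀ w, f1 w = M1 ↔ f3 w = M3) ∧ (¬ ∀ w, f2 w = M2 ↔ f3 w = M3)
  · obtain ⟨f1, f2, f3, M1, M2, M3, hF1, hF2, hF3, h12, h13, h23⟩ := hthree
    exact hitting_three hK hF1 hF2 hF3 h12 h13 h23
  · obtain ⟨f1, f2, M1, M2, h1, h2, hfac⟩ := exists_two_planes hK hthree
    by_cases hex : ∃ p1 ∈ K, ∃ q1 ∈ K, EffStar K p1 q1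
    · obtain ⟨p1, hp1, q1, hq1, hst1⟩ := hex
      refine ⟨fun _ => p1, fun _ => q1, fun _ => ⟨hp1, hq1⟩, fun p hp q hq hst => ?_⟩
      rcases share_endpoint hK h1 h2 hfac hp1 hq1 hp hq hst1 hst with h | h | h | h
      · left; exact mem_iUnion.2 ⟨0, by rw [h]; exact left_mem_segment ℝ _ _⟩
      · left; exact mem_iUnion.2 ⟨0, by rw [h]; exact right_mem_segment ℝ _ _⟩
      · right; exact mem_iUnion.2 ⟨0, by rw [h]; exact left_mem_segment ℝ _ _⟩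
      · right; exact mem_iUnion.2 ⟨0, by rw [h]; exact right_mem_segment ℝ _ _⟩
    · obtain ⟨z, hz⟩ := hK.int
      have hzK := interior_subset hz
      exact ⟨fun _ => z, fun _ => z, fun _ => ⟨hzK, hzK⟩,
        fun p hp q hq hst => absurd ⟨p, hp, q, hq, hst⟩ hex⟩

end Vale.Agent.Lib.P243.R3.H11

namespace Vale.Agent.Lib.P243.R3.H11

open Set MeasureTheory
open Vale.Agent.Lib.P243.R3

/-- M4 of the skeleton, from the star property of efficient pairs (M3b) as a hypothesis. -/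
theorem M4_of_M3b {K : Set E3} (hK : Body K)
    (hM3b : ∀ p ∈ K, ∀ q ∈ K, p ≠ q → Ahat K (q - p) = 3 * (volume K).toReal →
      ∀ x ∈ frontier K, segment ℝ p x ⊆ frontier K ∨ segment ℝ q x ⊆ frontier K) :
    ∃ α β : Fin 3 → E3, (∀ j, α j ∈ K ∧ β j ∈ K) ∧
      ∀ p ∈ K, ∀ q ∈ K, p ≠ q → Ahat K (q - p) = 3 * (volume K).toReal →
        (p ∈ ⋃ j, segment ℝ (α j) (β j)) ∨ (q ∈ ⋃ j, segment ℝ (α j) (β j)) := by
  obtain ⟨α, β, hαβ, h⟩ := hitting_of_star hK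
  exact ⟨α, β, hαβ, fun p hp q hq hpq heff => h p hp q hq (hM3b p hp q hq hpq heff)⟩

end Vale.Agent.Lib.P243.R3.H11
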