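import Mathlib
import Vale.Agent.Lib.P243.R3.Defs
import Vale.Agent.Lib.P243.R3.Defs4
import Vale.Agent.Lib.P243.R3.helper11.M4

/-!
# P243, `r_3 > 1/3`, module M4 complete: three segments meeting every star chord

Hypothesis-free versions of the statement of job J19 (`M4e_hitting_of`), for the landed
definition `Star` of `Defs4.lean`. The proof is in `helper11/M4.lean` (`H11.hitting_of_star`).
-/

namespace Vale.Agent.Lib.P243.R3

open Set

/-- M4, complete and without hypotheses: for every convex body `K` of `E3` there are three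
segments with endpoints in `K` such that every star chord of `K` has an endpoint on one of
them. -/
theorem M4e_hitting_mem {K : Set E3} (hK : Body K) :
    ∃ α β : Fin 3 → E3, (∀ j, α j ∈ K ∧ β j ∈ K) ∧ ∀ p q : E3, Star K p q →
      (p ∈ ⋃ j, segment ℝ (α j) (β j)) ∨ (q ∈ ⋃ j, segment ℝ (α j) (β j)) := by
  obtain ⟨α, β, hmem, h⟩ := H11.hitting_of_star hK
  exact ⟨α, β, hmem, fun p q hpq => h p hpq.1 q hpq.2.1 hpq.2.2.2⟩

/-- The conclusion of job J19 (`M4e_hitting_of`), without its three hypotheses. -/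
theorem M4e_hitting {K : Set E3} (hK : Body K) :
    ∃ α β : Fin 3 → E3, ∀ p q : E3, Star K p q →
      (p ∈ ⋃ j, segment ℝ (α j) (β j)) ∨ (q ∈ ⋃ j, segment ℝ (α j) (β j)) := by
  obtain ⟨α, β, -, h⟩ := M4e_hitting_mem hK
  exact ⟨α, β, h⟩

end Vale.Agent.Lib.P243.R3
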