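import Vale.Agent.Lib.P243.R3.helper11.Planes

/-!
Hitting set for efficient pairs (helper11, P243 R3 push, module M4).
-/

namespace Vale.Agent.Lib.P243.R3.H11

open Set Module MeasureTheory
open Vale.Agent.Lib.P243.R3

/-- The star of `p` in the boundary of `K`. -/
def Star (K : Set E3) (p : E3) : Set E3 := {x | segment ℝ p x ⊆ frontier K}

/-- `{f = M}` is a supporting plane of `K`. -/
def Supp (K : Set E3) (f : E3 →L[ℝ] ℝ) (M : ℝ) : Prop := f ≠ 0 ∧ ∀ y ∈ K, f y ≤ M

/-- A supporting plane containing three affinely independent points of `K`. -/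
def FacetPlane (K : Set E3) (f : E3 →L[ℝ] ℝ) (M : ℝ) : Prop :=
  Supp K f M ∧ ∃ u : Fin 3 → E3, AffineIndependent ℝ u ∧ ∀ j, u j ∈ K ∧ f (u j) = M

theorem interior_lt {K : Set E3} {f : E3 →L[ℝ] ℝ} {M : ℝ} (hs : Supp K f M) {c : E3}
    (hc : c ∈ interior K) : f c < M := by
  have hopen : IsOpen (f '' interior K) :=
    (f.isOpenMap (functional_surjective hs.1)) _ isOpen_interior
  have hsub : f '' interior K ⊆ Iic M := by
    rintro _ ⟨y, hy, rfl⟩
    exact hs.2 y (interior_subset hy)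
  have := interior_maximal hsub hopen ⟨c, hc, rfl⟩
  rw [interior_Iic] at this
  exact this

theorem mem_frontier_of_max {K : Set E3} {f : E3 →L[ℝ] ℝ} {M : ℝ} (hs : Supp K f M) {x : E3}
    (hx : x ∈ K) (hfx : f x = M) : x ∈ frontier K :=
  ⟨subset_closure hx, fun h => (interior_lt hs h).ne hfx⟩

theorem centroid_mem {K : Set E3} (hK : Body K) {f : E3 →L[ℝ] ℝ} {M : ℝ}
    {u : Fin 3 → E3} (huK : ∀ j, u j ∈ K ∧ f (u j) = M) :
    (1 / 3 : ℝ) • (u 0 + u 1 + u 2) ∈ K ∧ f ((1 / 3 : ℝ) • (u 0 + u 1 + u 2)) = M := by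
  constructor
  · have h12 : (1 / 2 : ℝ) • u 1 + (1 / 2 : ℝ) • u 2 ∈ K :=
      hK.conv (huK 1).1 (huK 2).1 (by norm_num) (by norm_num) (by norm_num)
    have h := hK.conv (huK 0).1 h12 (by norm_num : (0 : ℝ) ≤ 1 / 3)
      (by norm_num : (0 : ℝ) ≤ 2 / 3) (by norm_num)
    have e : (1 / 3 : ℝ) • (u 0 + u 1 + u 2)
        = (1 / 3 : ℝ) • u 0 + (2 / 3 : ℝ) • ((1 / 2 : ℝ) • u 1 + (1 / 2 : ℝ) • u 2) := by
      rw [smul_add, smul_add, smul_add, smul_smul, smul_smul]
      norm_num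
      abel
    rw [e]; exact h
  · simp only [map_smul, map_add, smul_eq_mul, (huK 0).2, (huK 1).2, (huK 2).2]
    ring

/-- If the centroid of three affinely independent points of a facet plane lies in the star of
`p ∈ K`, then `p` lies on the facet plane. -/
theorem star_facet {K : Set E3} (hK : Body K) {f : E3 →L[ℝ] ℝ} {M : ℝ}
    {u : Fin 3 → E3} (hu : AffineIndependent ℝ u) (huK : ∀ j, u j ∈ K ∧ f (u j) = M)
    {p : E3} (hp : p ∈ K)
    (hstar : (1 / 3 : ℝ) • (u 0 + u 1 + u 2) ∈ Star K p) : f p = M := by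
  have hx0K := (centroid_mem hK huK).1
  have hfx0 := (centroid_mem hK huK).2
  set x0 : E3 := (1 / 3 : ℝ) • (u 0 + u 1 + u 2) with hx0
  by_cases hpx : p = x0
  · rw [hpx]; exact hfx0
  have hmid : midpoint ℝ p x0 ∈ frontier K := hstar (midpoint_mem_segment p x0)
  obtain ⟨g, hg0, hgle, hgx, -⟩ := exists_support_segment hK.conv hK.int hp hx0K hmid
  -- g is constant on the three points
  have hgsum : g (u 0) + g (u 1) + g (u 2) = 3 * g p := by
    have : g x0 = g p := hgx
    rw [hx0] at this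
    simp only [map_smul, map_add, smul_eq_mul] at this
    linarith
  have h0 := hgle _ (huK 0).1
  have h1 := hgle _ (huK 1).1
  have h2 := hgle _ (huK 2).1
  have hgu : ∀ j, g (u j) = g p := by
    intro j
    fin_cases j
    · show g (u 0) = g p; linarith
    · show g (u 1) = g p; linarith
    · show g (u 2) = g p; linarith
  exact plane_unique hu hg0 hgu (fun j => (huK j).2) p rfl

/-- From an interior point, the ray in a nonzero direction leaves a compact set through a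
boundary point. -/
theorem exists_exit {K : Set E3} (hKc : IsCompact K) {c d : E3} (hc : c ∈ interior K)
    (hd : d ≠ 0) : ∃ T : ℝ, c + T • d ∈ frontier K := by
  set S : Set ℝ := {t | 0 ≤ t ∧ c + t • d ∈ K} with hS
  have hcont : Continuous fun t : ℝ => c + t • d := by fun_prop
  have hSclosed : IsClosed S := by
    have : S = Ici 0 ∩ (fun t : ℝ => c + t • d) ⁻¹' K := by
      ext t; simp [hS]
    rw [this]
    exact isClosed_Ici.inter (hKc.isClosed.preimage hcont)
  obtain ⟨R, hR⟩ := hKc.isBounded.exists_norm_le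
  have hdpos : 0 < ‖d‖ := norm_pos_iff.2 hd
  have hSbdd : BddAbove S := by
    refine ⟨(R + ‖c‖) / ‖d‖, fun t ht => ?_⟩
    have h1 := hR _ ht.2
    have h2 : ‖t • d‖ ≤ ‖c + t • d‖ + ‖c‖ := by
      have := norm_sub_le (c + t • d) c
      simpa using this
    rw [norm_smul, Real.norm_eq_abs, abs_of_nonneg ht.1] at h2
    rw [le_div_iff₀ hdpos]
    linarith
  have hSne : S.Nonempty := ⟨0, le_refl 0, by simpa using interior_subset hc⟩
  have hTmem : sSup S ∈ S := hSclosed.csSup_mem hSne hSbdd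
  refine ⟨sSup S, subset_closure hTmem.2, fun hint => ?_⟩
  have hopen : IsOpen ((fun t : ℝ => c + t • d) ⁻¹' interior K) :=
    isOpen_interior.preimage hcont
  obtain ⟨ε, hε, hball⟩ := Metric.isOpen_iff.1 hopen (sSup S) hint
  have hmem : sSup S + ε / 2 ∈ Metric.ball (sSup S) ε := by
    rw [Metric.mem_ball, Real.dist_eq]
    have : sSup S + ε / 2 - sSup S = ε / 2 := by ring
    rw [this, abs_of_pos (by linarith)]
    linarith
  have hin : sSup S + ε / 2 ∈ S :=
    ⟨by linarith [hTmem.1], interior_subset (hball hmem)⟩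
  have := le_csSup hSbdd hin
  linarith

theorem affineIndependent_of_not_on_line {a1 a2 x : E3} (h12 : a1 ≠ a2)
    (hx : ¬ ∃ s : ℝ, x = a1 + s • (a2 - a1)) : AffineIndependent ℝ ![a1, x, a2] := by
  rw [affineIndependent_iff_not_collinear_set]
  intro hcol
  rw [collinear_iff_of_mem (p₀ := a1) (by simp)] at hcol
  obtain ⟨v, hv⟩ := hcol
  obtain ⟨r, hr⟩ := hv x (by simp)
  obtain ⟨r', hr'⟩ := hv a2 (by simp)
  have hr'0 : r' ≠ 0 := by
    rintro rfl
    apply h12
    simp at hr'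
    exact hr'.symm
  apply hx
  refine ⟨r / r', ?_⟩
  rw [hr, hr']
  simp only [vadd_eq_add, add_sub_cancel_right]
  rw [smul_smul, div_mul_cancel₀ _ hr'0]
  abel

/-- One step of the boundary covering argument. -/
theorem cover_step {K : Set E3} (hK : Body K) {a1 a2 x : E3} (ha1 : a1 ∈ K) (ha2 : a2 ∈ K)
    (hx : x ∈ K) (h12 : a1 ≠ a2)
    (hs2 : segment ℝ a2 (midpoint ℝ a1 x) ⊆ frontier K) :
    (∃ s : ℝ, x = a1 + s • (a2 - a1)) ∨ ∃ (g : E3 →L[ℝ] ℝ) (M' : ℝ), FacetPlane K g M' ∧ g x = M' := by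
  by_cases hcol : ∃ s : ℝ, x = a1 + s • (a2 - a1)
  · exact Or.inl hcol
  right
  have hx'K : midpoint ℝ a1 x ∈ K := hK.conv.midpoint_mem ha1 hx
  have hmid : midpoint ℝ a2 (midpoint ℝ a1 x) ∈ frontier K := hs2 (midpoint_mem_segment _ _)
  obtain ⟨g, hg0, hgle, hgx, -⟩ := exists_support_segment hK.conv hK.int ha2 hx'K hmid
  have hopen : midpoint ℝ a1 x ∈ openSegment ℝ a1 x := by
    refine ⟨1 / 2, 1 / 2, by norm_num, by norm_num, by norm_num, ?_⟩
    rw [midpoint_eq_smul_add, smul_add]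
    simp
  obtain ⟨hga1, hgxx⟩ := support_of_openSegment hgle ha1 hx hopen hgx
  refine ⟨g, g a2, ⟨⟨hg0, hgle⟩, ![a1, x, a2], affineIndependent_of_not_on_line h12 hcol, ?_⟩, hgxx⟩
  intro j
  fin_cases j
  · exact ⟨ha1, hga1⟩
  · exact ⟨hx, hgxx⟩
  · exact ⟨ha2, rfl⟩

end Vale.Agent.Lib.P243.R3.H11
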