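import Vale.Agent.Lib.P243.R3.helper11.Hitting

/-!
Hitting set for efficient pairs, part 2 (helper11, P243 R3 push, module M4).
-/

namespace Vale.Agent.Lib.P243.R3.H11

open Set Module MeasureTheory
open Vale.Agent.Lib.P243.R3

/-- The part of a compact convex set on a line lies in a segment with endpoints in the set. -/
theorem line_segment {K : Set E3} (hKc : IsCompact K) (hKn : K.Nonempty) (c d : E3) :
    ∃ α β : E3, α ∈ K ∧ β ∈ K ∧ ∀ w ∈ K, (∃ t : ℝ, w = c + t • d) → w ∈ segment ℝ α β := by
  by_cases hex : ∃ w ∈ K, ∃ t : ℝ, w = c + t • d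
  swap
  · obtain ⟨z, hz⟩ := hKn
    exact ⟨z, z, hz, hz, fun w hw ht => absurd ⟨w, hw, ht⟩ hex⟩
  by_cases hd : d = 0
  · obtain ⟨w0, hw0, t0, ht0⟩ := hex
    have hc : c ∈ K := by
      rw [hd, smul_zero, add_zero] at ht0
      rw [← ht0]; exact hw0
    refine ⟨c, c, hc, hc, fun w _ ht => ?_⟩
    obtain ⟨t, rfl⟩ := ht
    rw [hd, smul_zero, add_zero]
    exact left_mem_segment ℝ c c
  set S : Set ℝ := {t | c + t • d ∈ K} with hS
  have hcont : Continuous fun t : ℝ => c + t • d := by fun_prop
  have hSclosed : IsClosed S := hKc.isClosed.preimage hcont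
  obtain ⟨R, hR⟩ := hKc.isBounded.exists_norm_le
  have hdpos : 0 < ‖d‖ := norm_pos_iff.2 hd
  have habs : ∀ t ∈ S, |t| ≤ (R + ‖c‖) / ‖d‖ := by
    intro t ht
    have h1 := hR _ ht
    have h2 : ‖t • d‖ ≤ ‖c + t • d‖ + ‖c‖ := by
      have := norm_sub_le (c + t • d) c
      simpa using this
    rw [norm_smul, Real.norm_eq_abs] at h2
    rw [le_div_iff₀ hdpos]
    linarith
  have hSbdd : BddAbove S := ⟨(R + ‖c‖) / ‖d‖, fun t ht => le_trans (le_abs_self t) (habs t ht)⟩
  have hSbdd' : BddBelow S :=
    ⟨-((R + ‖c‖) / ‖d‖), fun t ht => by have := habs t ht; have := neg_abs_le t; linarith⟩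
  have hSne : S.Nonempty := by
    obtain ⟨w0, hw0, t0, ht0⟩ := hex
    refine ⟨t0, ?_⟩
    show c + t0 • d ∈ K
    rw [← ht0]; exact hw0
  have hT1 : sSup S ∈ S := hSclosed.csSup_mem hSne hSbdd
  have hT0 : sInf S ∈ S := hSclosed.csInf_mem hSne hSbdd'
  refine ⟨c + sInf S • d, c + sSup S • d, hT0, hT1, fun w hw ht => ?_⟩
  obtain ⟨t, rfl⟩ := ht
  have htS : t ∈ S := hw
  have hlo : sInf S ≤ t := csInf_le hSbdd' htS
  have hhi : t ≤ sSup S := le_csSup hSbdd htS
  rcases eq_or_lt_of_le (le_trans hlo hhi) with heq | hlt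
  · have : t = sInf S := le_antisymm (by rw [heq]; exact hhi) hlo
    rw [this]
    exact left_mem_segment ℝ _ _
  · have hpos : 0 < sSup S - sInf S := by linarith
    refine ⟨(sSup S - t) / (sSup S - sInf S), (t - sInf S) / (sSup S - sInf S),
      div_nonneg (by linarith) hpos.le, div_nonneg (by linarith) hpos.le, ?_, ?_⟩
    · rw [← add_div]
      have : sSup S - t + (t - sInf S) = sSup S - sInf S := by ring
      rw [this, div_self hpos.ne']
    · have e1 : (sSup S - t) / (sSup S - sInf S) + (t - sInf S) / (sSup S - sInf S) = 1 := by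
        rw [← add_div]
        have : sSup S - t + (t - sInf S) = sSup S - sInf S := by ring
        rw [this, div_self hpos.ne']
      have e2 : (sSup S - t) / (sSup S - sInf S) * sInf S
          + (t - sInf S) / (sSup S - sInf S) * sSup S = t := by
        field_simp
        ring
      rw [smul_add, smul_add, smul_smul, smul_smul]
      have : ((sSup S - t) / (sSup S - sInf S)) • c + ((t - sInf S) / (sSup S - sInf S)) • c = c := by
        rw [← add_smul, e1, one_smul]
      calc ((sSup S - t) / (sSup S - sInf S)) • c + ((sSup S - t) / (sSup S - sInf S) * sInf S) • d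
            + (((t - sInf S) / (sSup S - sInf S)) • c
              + ((t - sInf S) / (sSup S - sInf S) * sSup S) • d)
          = (((sSup S - t) / (sSup S - sInf S)) • c + ((t - sInf S) / (sSup S - sInf S)) • c)
            + (((sSup S - t) / (sSup S - sInf S) * sInf S)
              + ((t - sInf S) / (sSup S - sInf S) * sSup S)) • d := by
            rw [add_smul]; abel
        _ = c + t • d := by rw [this, e2]

/-- A translate of the span of two vectors is a null set. -/
theorem plane_null (a v d : E3) :
    volume ((AffineSubspace.mk' a (Submodule.span ℝ ({v, d} : Set E3)) : AffineSubspace ℝ E3)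
      : Set E3) = 0 := by
  classical
  apply MeasureTheory.Measure.addHaar_affineSubspace
  intro htop
  have hdir := congrArg AffineSubspace.direction htop
  rw [AffineSubspace.direction_mk', AffineSubspace.direction_top] at hdir
  have h1 : finrank ℝ (Submodule.span ℝ (({v, d} : Finset E3) : Set E3)) ≤ ({v, d} : Finset E3).card :=
    finrank_span_finset_le_card _
  have h2 : ({v, d} : Finset E3).card ≤ 2 := Finset.card_le_two
  have h3 : (({v, d} : Finset E3) : Set E3) = {v, d} := by simp
  rw [h3, hdir, finrank_top, finrank_euclideanSpace_fin] at h1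
  omega

/-- The boundary of a convex body is not contained in two supporting planes and finitely many
lines. -/
theorem frontier_not_covered {K : Set E3} (hK : Body K) {f1 f2 : E3 →L[ℝ] ℝ} {M1 M2 : ℝ}
    (h1 : Supp K f1 M1) (h2 : Supp K f2 M2) (A : Finset (E3 × E3))
    (hcov : ∀ x ∈ frontier K, f1 x = M1 ∨ f2 x = M2 ∨
      ∃ ab ∈ A, ∃ s : ℝ, x = ab.1 + s • (ab.2 - ab.1)) : False := by
  obtain ⟨d, hd0, hd1, hd2⟩ := exists_common_kernel f1 f2 h1.1 h2.1
  have hsub : interior K ⊆ ⋃ ab ∈ A,
      ((AffineSubspace.mk' ab.1 (Submodule.span ℝ ({ab.2 - ab.1, d} : Set E3))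
        : AffineSubspace ℝ E3) : Set E3) := by
    intro c hc
    obtain ⟨T, hT⟩ := exists_exit hK.compact hc hd0
    rcases hcov _ hT with h | h | ⟨ab, hab, s, hs⟩
    · exfalso
      have := interior_lt h1 hc
      simp only [map_add, map_smul, hd1, smul_zero, add_zero] at h
      linarith
    · exfalso
      have := interior_lt h2 hc
      simp only [map_add, map_smul, hd2, smul_zero, add_zero] at h
      linarith
    · refine mem_iUnion₂.2 ⟨ab, hab, ?_⟩
      rw [SetLike.mem_coe, AffineSubspace.mem_mk']
      have e : c -ᵥ ab.1 = s • (ab.2 - ab.1) + (-T) • d := by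
        rw [vsub_eq_sub]
        have : c = ab.1 + s • (ab.2 - ab.1) - T • d := by rw [← hs]; abel
        rw [this]; simp only [neg_smul]; abel
      rw [e]
      exact Submodule.add_mem _
        (Submodule.smul_mem _ _ (Submodule.subset_span (by simp)))
        (Submodule.smul_mem _ _ (Submodule.subset_span (by simp)))
  have hzero : volume (⋃ ab ∈ A,
      ((AffineSubspace.mk' ab.1 (Submodule.span ℝ ({ab.2 - ab.1, d} : Set E3))
        : AffineSubspace ℝ E3) : Set E3)) = 0 := by
    refine nonpos_iff_eq_zero.1 (le_trans (measure_biUnion_finset_le A _) ?_)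
    exact le_of_eq (Finset.sum_eq_zero (fun ab _ => plane_null _ _ _))
  have hpos : 0 < volume (interior K) := isOpen_interior.measure_pos volume hK.int
  have := measure_mono_null hsub hzero
  rw [this] at hpos
  exact lt_irrefl _ hpos

end Vale.Agent.Lib.P243.R3.H11
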