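import Mathlib

/-!
Supporting functionals at boundary segments of a convex body (helper11, for P243 R3 push).
-/

namespace Vale.Agent.Lib.P243.R3.H11

open Set

variable {E : Type*} [NormedAddCommGroup E] [NormedSpace ℝ E]

/-- A supporting functional at a boundary point of a convex set with nonempty interior. -/
theorem exists_support_at {K : Set E} (hK : Convex ℝ K) (hint : (interior K).Nonempty)
    {x : E} (hx : x ∈ frontier K) :
    ∃ f : E →L[ℝ] ℝ, f ≠ 0 ∧ (∀ y ∈ K, f y ≤ f x) ∧ (∀ y ∈ interior K, f y < f x) := by
  have hxi : x ∉ interior K := fun h => hx.2 h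
  obtain ⟨f, hf⟩ := geometric_hahn_banach_open_point hK.interior isOpen_interior hxi
  refine ⟨f, ?_, ?_, hf⟩
  · rintro rfl
    obtain ⟨y, hy⟩ := hint
    have := hf y hy
    simp at this
  · intro y hy
    have hy' : y ∈ closure (interior K) := by
      rw [hK.closure_interior_eq_closure_of_nonempty_interior hint]
      exact subset_closure hy
    have hcl : closure (interior K) ⊆ {z | f z ≤ f x} :=
      closure_minimal (fun z hz => le_of_lt (hf z hz))
        (isClosed_le f.continuous continuous_const)
    exact hcl hy'

/-- SUP lemma: if the midpoint of `a`, `b` lies on the boundary of the convex set `K`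
(with nonempty interior) and `a, b ∈ K`, then some supporting functional of `K` is maximal
at `a`, at `b` and at the midpoint simultaneously. -/
theorem exists_support_segment {K : Set E} (hK : Convex ℝ K) (hint : (interior K).Nonempty)
    {a b : E} (ha : a ∈ K) (hb : b ∈ K) (hm : midpoint ℝ a b ∈ frontier K) :
    ∃ f : E →L[ℝ] ℝ, f ≠ 0 ∧ (∀ y ∈ K, f y ≤ f a) ∧ f b = f a ∧
      (∀ y ∈ interior K, f y < f a) := by
  obtain ⟨f, hf0, hle, hlt⟩ := exists_support_at hK hint hm
  have hmid : f (midpoint ℝ a b) = (f a + f b) / 2 := by
    rw [midpoint_eq_smul_add]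
    simp only [map_smul, map_add, smul_eq_mul, invOf_eq_inv]
    ring
  have h1 := hle a ha
  have h2 := hle b hb
  rw [hmid] at h1 h2
  have hab : f a = f b := by linarith
  have hma : f (midpoint ℝ a b) = f a := by rw [hmid]; linarith
  refine ⟨f, hf0, ?_, hab.symm, ?_⟩
  · intro y hy; have := hle y hy; rw [hma] at this; exact this
  · intro y hy; have := hlt y hy; rw [hma] at this; exact this

/-- If a supporting functional `f` of the convex set `K` attains its maximum over `K` at a point
`x` in the open segment between `a` and `c` (both in `K`), it attains it at `a` and `c`. -/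
theorem support_of_openSegment {K : Set E} {f : E →L[ℝ] ℝ} {a c x : E} {M : ℝ}
    (hle : ∀ y ∈ K, f y ≤ M) (ha : a ∈ K) (hc : c ∈ K) (hx : x ∈ openSegment ℝ a c)
    (hfx : f x = M) : f a = M ∧ f c = M := by
  obtain ⟨s, t, hs, ht, hst, rfl⟩ := hx
  have h1 := hle a ha
  have h2 := hle c hc
  simp only [map_add, map_smul, smul_eq_mul] at hfx
  have hsum : s * (M - f a) + t * (M - f c) = 0 := by
    have : s * M + t * M = M := by rw [← add_mul, hst, one_mul]
    linarith
  have h3 : 0 ≤ s * (M - f a) := mul_nonneg hs.le (by linarith)
  have h4 : 0 ≤ t * (M - f c) := mul_nonneg ht.le (by linarith)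
  have h5 : s * (M - f a) = 0 := by linarith
  have h6 : t * (M - f c) = 0 := by linarith
  constructor
  · rcases mul_eq_zero.1 h5 with h | h
    · exact absurd h hs.ne'
    · linarith
  · rcases mul_eq_zero.1 h6 with h | h
    · exact absurd h ht.ne'
    · linarith

end Vale.Agent.Lib.P243.R3.H11
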