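import Vale.Agent.Lib.P243.R3.Defs
import Vale.Agent.Lib.P243.R3.helper11.Sup

/-!
Linear algebra of planes in Euclidean 3-space (helper11, P243 R3 push, module M4).
-/

namespace Vale.Agent.Lib.P243.R3.H11

open Set Module
open Vale.Agent.Lib.P243.R3

theorem functional_surjective {f : E3 →L[ℝ] ℝ} (hf : f ≠ 0) :
    Function.Surjective (f : E3 →ₗ[ℝ] ℝ) := by
  have : ∃ v, f v ≠ 0 := by
    by_contra h
    push Not at h
    exact hf (ContinuousLinearMap.ext fun v => by simpa using h v)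
  obtain ⟨v, hv⟩ := this
  intro r
  refine ⟨(r / f v) • v, ?_⟩
  simp only [ContinuousLinearMap.coe_coe, map_smul, smul_eq_mul]
  field_simp

theorem finrank_ker_eq_two {f : E3 →L[ℝ] ℝ} (hf : f ≠ 0) :
    finrank ℝ (LinearMap.ker (f : E3 →ₗ[ℝ] ℝ)) = 2 := by
  have h := LinearMap.finrank_range_add_finrank_ker (f : E3 →ₗ[ℝ] ℝ)
  have hr : LinearMap.range (f : E3 →ₗ[ℝ] ℝ) = ⊤ :=
    LinearMap.range_eq_top.2 (functional_surjective hf)
  rw [hr, finrank_top, Module.finrank_self, finrank_euclideanSpace_fin] at h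
  omega

/-- The plane through three affinely independent points is unique. -/
theorem plane_unique {u : Fin 3 → E3} (hu : AffineIndependent ℝ u) {f g : E3 →L[ℝ] ℝ}
    (hg : g ≠ 0) {M M' : ℝ} (hgu : ∀ j, g (u j) = M') (hfu : ∀ j, f (u j) = M) :
    ∀ w, g w = M' → f w = M := by
  have hli := (affineIndependent_iff_linearIndependent_vsub ℝ u 0).1 hu
  set b : {j : Fin 3 // j ≠ 0} → E3 := fun j => u j -ᵥ u 0 with hb
  set S : Submodule ℝ E3 := Submodule.span ℝ (Set.range b) with hS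
  have hfin : finrank ℝ S = 2 := by
    rw [hS, finrank_span_eq_card hli]
    decide
  have hSg : S ≤ LinearMap.ker (g : E3 →ₗ[ℝ] ℝ) := by
    rw [hS, Submodule.span_le]
    rintro _ ⟨j, rfl⟩
    simp only [hb, vsub_eq_sub, SetLike.mem_coe, LinearMap.mem_ker, ContinuousLinearMap.coe_coe,
      map_sub, hgu, sub_self]
  have hSf : S ≤ LinearMap.ker (f : E3 →ₗ[ℝ] ℝ) := by
    rw [hS, Submodule.span_le]
    rintro _ ⟨j, rfl⟩
    simp only [hb, vsub_eq_sub, SetLike.mem_coe, LinearMap.mem_ker, ContinuousLinearMap.coe_coe,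
      map_sub, hfu, sub_self]
  have hEq : S = LinearMap.ker (g : E3 →ₗ[ℝ] ℝ) :=
    Submodule.eq_of_le_of_finrank_eq hSg (by rw [hfin, finrank_ker_eq_two hg])
  intro w hw
  have hmem : w - u 0 ∈ LinearMap.ker (g : E3 →ₗ[ℝ] ℝ) := by
    simp only [LinearMap.mem_ker, ContinuousLinearMap.coe_coe, map_sub, hw, hgu, sub_self]
  rw [← hEq] at hmem
  have := hSf hmem
  simp only [LinearMap.mem_ker, ContinuousLinearMap.coe_coe, map_sub, hfu] at this
  linarith

/-- Two nonzero functionals have a common nonzero kernel vector. -/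
theorem exists_common_kernel (f g : E3 →L[ℝ] ℝ) (hf : f ≠ 0) (hg : g ≠ 0) :
    ∃ d : E3, d ≠ 0 ∧ f d = 0 ∧ g d = 0 := by
  set A := LinearMap.ker (f : E3 →ₗ[ℝ] ℝ) with hAdef
  set B := LinearMap.ker (g : E3 →ₗ[ℝ] ℝ) with hBdef
  have h := Submodule.finrank_sup_add_finrank_inf_eq A B
  have hA : finrank ℝ A = 2 := finrank_ker_eq_two hf
  have hB : finrank ℝ B = 2 := finrank_ker_eq_two hg
  have hle : finrank ℝ (A ⊔ B : Submodule ℝ E3) ≤ 3 := by
    have := Submodule.finrank_le (A ⊔ B)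
    rwa [finrank_euclideanSpace_fin] at this
  have hpos : 0 < finrank ℝ (A ⊓ B : Submodule ℝ E3) := by omega
  have hne : (A ⊓ B : Submodule ℝ E3) ≠ ⊥ := by
    intro h0
    rw [h0, finrank_bot] at hpos
    exact lt_irrefl _ hpos
  obtain ⟨d, hd, hd0⟩ := Submodule.exists_mem_ne_zero_of_ne_bot hne
  have h1 : d ∈ A := hd.1
  have h2 : d ∈ B := hd.2
  rw [hAdef, LinearMap.mem_ker] at h1
  rw [hBdef, LinearMap.mem_ker] at h2
  exact ⟨d, hd0, h1, h2⟩

/-- Two distinct planes meet inside a line. -/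
theorem planes_inter_line {f g : E3 →L[ℝ] ℝ} (hf : f ≠ 0) (hg : g ≠ 0) {M M' : ℝ}
    (hne : ¬ ∀ w, f w = M ↔ g w = M') :
    ∃ c d : E3, ∀ w, f w = M → g w = M' → ∃ t : ℝ, w = c + t • d := by
  by_cases hex : ∃ c, f c = M ∧ g c = M'
  swap
  · exact ⟨0, 0, fun w h1 h2 => absurd ⟨w, h1, h2⟩ hex⟩
  obtain ⟨c, hc1, hc2⟩ := hex
  set A := LinearMap.ker (f : E3 →ₗ[ℝ] ℝ) with hAdef
  set B := LinearMap.ker (g : E3 →ₗ[ℝ] ℝ) with hBdef
  have hA : finrank ℝ A = 2 := finrank_ker_eq_two hf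
  have hB : finrank ℝ B = 2 := finrank_ker_eq_two hg
  have hAB : A ≠ B := by
    intro hEq
    apply hne
    intro w
    have h1 : f w = M ↔ w - c ∈ A := by
      simp only [hAdef, LinearMap.mem_ker, ContinuousLinearMap.coe_coe, map_sub, hc1]
      constructor <;> intro h <;> linarith
    have h2 : g w = M' ↔ w - c ∈ B := by
      simp only [hBdef, LinearMap.mem_ker, ContinuousLinearMap.coe_coe, map_sub, hc2]
      constructor <;> intro h <;> linarith
    rw [h1, h2, hEq]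
  have hlt : finrank ℝ (A ⊓ B : Submodule ℝ E3) ≤ 1 := by
    by_contra hcon
    push Not at hcon
    have hle : finrank ℝ (A ⊓ B : Submodule ℝ E3) ≤ 2 := by
      have := Submodule.finrank_mono (inf_le_left : A ⊓ B ≤ A)
      omega
    have h2 : finrank ℝ (A ⊓ B : Submodule ℝ E3) = 2 := by omega
    have e1 : A ⊓ B = A := Submodule.eq_of_le_of_finrank_eq inf_le_left (by rw [h2, hA])
    have e2 : A ⊓ B = B := Submodule.eq_of_le_of_finrank_eq inf_le_right (by rw [h2, hB])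
    exact hAB (e1.symm.trans e2)
  obtain ⟨v, hv⟩ := finrank_le_one_iff.1 hlt
  refine ⟨c, (v : E3), fun w h1 h2 => ?_⟩
  have hmem : w - c ∈ (A ⊓ B : Submodule ℝ E3) := by
    refine ⟨?_, ?_⟩
    · simp only [hAdef, SetLike.mem_coe, LinearMap.mem_ker, ContinuousLinearMap.coe_coe, map_sub,
        h1, hc1, sub_self]
    · simp only [hBdef, SetLike.mem_coe, LinearMap.mem_ker, ContinuousLinearMap.coe_coe, map_sub,
        h2, hc2, sub_self]
  obtain ⟨t, ht⟩ := hv ⟨w - c, hmem⟩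
  refine ⟨t, ?_⟩
  have : t • (v : E3) = w - c := by
    have := congrArg Subtype.val ht
    simpa using this
  rw [this]; abel

end Vale.Agent.Lib.P243.R3.H11
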